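import Vale.Agent.P287D.Ku.St
import Vale.Agent.P287D.Cv.Rr
import Vale.Agent.P287D.Pb.Res
import Vale.Agent.P287D.Gm.Ffs

/-!
# P287D, block WP: the canonical bundle inequality over a curve
-/

open Set

noncomputable section

namespace Vale.Agent.P287D

/-- **WP1**: weak positivity over a curve; only the generic fibre is klt -/
def WP1 : Prop := ForS fun n K _ _ => ∀ (L : IntermediateField ℂ K) (Γ : BD K) (D θ : BD L),
  FF L 1 → D ∈ Car L → θ ∈ Car L → Nef (pb (inc L) D - Γ) → Big (pb (inc L) D - Γ) →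
  (∀ P, Hor L P → -1 < dsc (n + 1) Γ P) →
  (∀ f : K, (∀ P, Hor L P → Aj (n + 1) Γ P f) → f ∈ L) →
  (∀ p : Pl L, ∃ P, Lies (inc L) P p ∧ dsc (n + 1) Γ P + 1 ≤ (1 - θ p) * P.ord (inc L p.t)) →
  I1 (cn L 1 + θ) < I1 D

namespace Wp

variable {K : Type} [Field K] [Algebra ℂ K] {L : IntermediateField ℂ K} {n : ℕ}

theorem hor_iff {P : Pl K} : Hor L P ↔ Trv (inc L) P :=
  ⟨fun h f => h f f.2, fun h a ha => h ⟨a, ha⟩⟩

theorem cst_inc (L : IntermediateField ℂ K) : Cst (inc L) := fun c => ⟨c, rfl⟩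

theorem no_pl (h : FF K 0) (P : Pl K) : False := by
  have k : Algebra.trdeg ℂ P.κ + 1 = 0 :=
    P.dvl.trans ((Pb.ff_trdeg h).trans Nat.cast_zero)
  simp at k

theorem res_vt (hR : RES) (hK : FF K (n + 1)) (hL : FF L 1) {P : Pl K} {q : Pl L}
    (h : Lies (inc L) P q) {β : BD L} (hβ : β ∈ Car L) (h0 : β q = 0) :
    res P (pb (inc L) β) = 0 := by
  rw [((cst_inc L).res_lies hR hL hK h h.isRd hβ).2 h0]
  exact funext fun R => pb_of_not (fun ⟨Q, _⟩ => no_pl (Gm.ffs.rsd 0 L hL q) Q) _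

end Wp

open Wp in
theorem wp1_of (hR : RES) (hk : UKG) : WP1 := by
  intro n K _ _ hK L Γ D θ hL hD hθ h1 h2 h3 h4 h5
  by_contra hc
  have ok : Ok (inc L) := hK.ok_sub L
  have kc : cn L 1 ∈ Car L := CarZ.car (Cv.cn_carZ hL)
  have hn : Nef (pb (inc L) (cn L 1 + θ - D)) := ok.nef ((Cv.nef_iff hL).2
    ⟨sub_mem (add_mem kc hθ) hD, by rw [Cv.I1_sub hL (add_mem kc hθ) hD]; linarith⟩)
  have e : -(Γ - pb (inc L) (cn L 1 + θ)) =
      pb (inc L) D - Γ + pb (inc L) (cn L 1 + θ - D) := by rw [pb_sub]; abel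
  obtain ⟨p⟩ := Cv.ne_pl hL
  obtain ⟨k, hk'⟩ := CarZ.int (Cv.cn_carZ hL) p
  have dc : p.δ ∈ Car L := CarZ.car (Cv.δ_carZ hL p)
  have ds : ∀ P, dsc (n + 1) (Γ - pb (inc L) (cn L 1 + θ)) P =
      dsc (n + 1) Γ P + pb (inc L) (cn L 1 + θ) P := fun P => by
    simp only [dsc, Pi.sub_apply]; ring
  obtain ⟨f, hf⟩ := hk (n + 1) K hK (Γ - pb (inc L) (cn L 1 + θ)) (pb (inc L) p.δ)
    (inc L (p.t ^ (-k - 1))) (e ▸ h1.add hn) (e ▸ h2.add_nef hn) (ok.car dc)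
    (pb_nonneg _ p.δ_nonneg) fun P a b => by
      rcases ok P with c | ⟨q, c⟩
      · refine .inr ?_
        rw [ds, c.pb, c.ord]
        simpa using h3 P (hor_iff.2 c)
      · refine (b (res_vt hR hK hL c dc ?_)).elim
        rw [c.pb] at a
        exact (mul_eq_zero.1 a).resolve_left (by exact_mod_cast c.e_pos.ne')
  obtain ⟨u, rfl⟩ : ∃ u : L, inc L u = f := ⟨⟨f, h4 f fun P hP => by
    have c := hor_iff.1 hP
    have := (hf P).2 (c.pb _)
    rwa [Aj, ds, c.pb, add_zero] at this⟩, rfl⟩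
  have key : ∀ (q : Pl L) (v : L), (∀ P, Lies (inc L) P q →
      Aj (n + 1) (Γ - pb (inc L) (cn L 1 + θ)) P (inc L v)) →
      v = 0 ∨ 0 ≤ (q.ord v : ℝ) + cn L 1 q := fun q v hv => by
    obtain ⟨P, c, d⟩ := h5 q
    refine (hv P c).imp (fun a => (map_eq_zero _).1 a) fun a => ?_
    obtain ⟨j, hj⟩ := CarZ.int (Cv.cn_carZ hL) q
    rw [ds, c.pb, c.ord v, Pi.add_apply, hj] at a
    have e0 : (0 : ℝ) < P.ord (inc L q.t) := by exact_mod_cast c.e_pos
    push_cast at a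
    have b : (0 : ℝ) < P.ord (inc L q.t) * (q.ord v + j + 1) := by nlinarith
    have b' : (0 : ℤ) < q.ord v + j + 1 := by exact_mod_cast (mul_pos_iff_of_pos_left e0).1 b
    rw [hj]
    exact_mod_cast (by omega : (0 : ℤ) ≤ q.ord v + j)
  have hp := key p (u - p.t ^ (-k - 1)) fun P c => by
    rw [map_sub]
    refine (hf P).1 ?_
    rw [c.pb, p.δ_self, mul_one]
    exact_mod_cast c.e_pos
  have t1 : p.t ^ (-k - 1) ∈ p.sub (cn L 1 p + 1) := .inr (by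
    rw [p.ord_t_zpow, hk']; push_cast; linarith)
  have s1 : Sec (cn L 1 + p.δ) u := sec_iff.2 fun q => by
    by_cases a : q = p
    · subst a
      have : u - q.t ^ (-k - 1) ∈ q.sub (cn L 1 q + 1) := hp.imp_right fun a => by linarith
      simpa [q.δ_self] using add_mem this t1
    · rw [Pi.add_apply, Pl.δ_ne a, add_zero]
      exact key q u fun P c => (hf P).2 (by rw [c.pb, Pl.δ_ne a, mul_zero])
  have s2 : u ∈ p.sub (cn L 1 p) :=
    sec_iff.1 (mem_H0.1 (Cv.H0_cn_add_δ hL p ▸ mem_H0.2 s1)) p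
  have s3 : p.t ^ (-k - 1) ∈ p.sub (cn L 1 p) := by
    simpa using sub_mem s2 (show _ ∈ p.sub (cn L 1 p) from hp)
  rcases s3 with a | a
  · exact zpow_ne_zero _ p.t_ne a
  · rw [p.ord_t_zpow, hk'] at a
    push_cast at a
    linarith

theorem WP1.cbf (h : WP1) : CBF := by
  intro n K _ _ hK L Γ D θ hL _ hD hθ h0 h1 h2 h3 h4 _
  refine h n K hK L Γ D θ hL ((Cv.isB_iff hL).1 hD) ((Cv.isB_iff hL).1 hθ) h1 h2
    (fun P _ => h0 P) (fun f hf => ?_) fun p => (h4 p).2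
  by_cases f0 : f = 0
  · exact f0 ▸ zero_mem _
  refine h3 f fun P hP => ?_
  have a := (hf P hP).resolve_left f0
  have b : -P.ord f - 1 < ⌈dsc (n + 1) Γ P⌉ := Int.lt_ceil.2 (by push_cast; linarith)
  exact_mod_cast (by omega : 0 ≤ P.ord f + ⌈dsc (n + 1) Γ P⌉)

end Vale.Agent.P287D
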