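import Vale.Agent.P287D.Ad.All
import Vale.Agent.P287D.Va.Des

/-!
# P287D, block WP: rank one over the centre, the discriminant is effective
-/

open Set
open Vale.Agent.P297Z.Pl

noncomputable section

namespace Vale.Agent.P287D.Wp

open Loq Ae

variable {K : Type} [Field K] [Algebra ℂ K] {n : ℕ} {Λ Γ Θ : BD K} {s : Finset K} {c : ℝ}

/-- finite check for the round up of the discrepancies -/
theorem chk (hK : FF K n) (hΓ : Γ ∈ Car K) (hΛ : Λ ∈ Car K) : ∃ T : Finset (Pl K),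
    ∀ D, Dsc Λ D → 0 ≤ D → (∀ P ∈ T, 0 ≤ ⌈dsc n Γ P⌉ + D P) → ∀ Q, 0 ≤ ⌈dsc n Γ Q⌉ + D Q := by
  obtain _ | n := n
  · exact ⟨∅, fun _ _ _ _ Q => (Bm.no_pl hK Q).elim⟩
  obtain ⟨s, κ, T, h, l, -, u, v⟩ := Pr.ls2 hK finite_empty hΓ hΛ
  obtain ⟨a, b⟩ := l.hull_sum fun P => ⌈dsc (n + 1) Γ P⌉
  have z := sum_mem (t := T) fun P _ => CarZ.zsmul (l.hz P) ⌈dsc (n + 1) Γ P⌉
  have e := fun P (p : P ∈ T) => (b P (l.on P p)).trans (if_pos p)
  refine ⟨T, fun D d d0 dT R => ?_⟩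
  have k := l.gt (Γ := Γ + _) (Q := R) (by
    rw [← sub_sub]
    exact u.sub ⟨a, fun P p q => (b P p).trans (if_neg q)⟩) le_rfl one_pos fun P p _ => by
      rw [Pr.dsc_add, e P p]
      linarith [Int.ceil_lt_add_one (dsc (n + 1) Γ P)]
  have g := l.hart _ (a.add (v.1.trans d)) (fun P p => by
    rw [Pi.add_apply, b P p]
    split_ifs with q
    exacts [dT P q, by simpa using d0 P]) R
  obtain ⟨m, hm⟩ := CarZ.int z R
  rw [Pr.dsc_add, hm] at k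
  rw [Pi.add_apply, hm] at g
  have : (m : ℝ) ≤ ⌈dsc (n + 1) Γ R⌉ := by
    rw [Int.cast_le, Int.le_ceil_iff]
    linarith
  exact g.trans (by linarith)

/-- `w` is a section of `m` times the system which does not vanish at the places of `Z` -/
structure Us (s : Finset K) (Z : Set (Pl K)) (m : ℕ) (w : K) : Prop where
  ne : w ≠ 0
  nn : 0 ≤ dv w + (m : ℝ) • mx s
  zz : ∀ R ∈ Z, (dv w + (m : ℝ) • mx s) R = 0

theorem Us.eq {Z : Set (Pl K)} {m m' : ℕ} {w w' : K} (h : Us s Z m w) (h' : Us s Z m' w') :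
    dv (w * w') + ((m + m' : ℕ) : ℝ) • mx s =
      (dv w + (m : ℝ) • mx s) + (dv w' + (m' : ℝ) • mx s) := by
  rw [dv_mul h.ne h'.ne, Nat.cast_add, add_smul]; abel

theorem Us.mul {Z : Set (Pl K)} {m m' : ℕ} {w w' : K} (h : Us s Z m w) (h' : Us s Z m' w') :
    Us s Z (m + m') (w * w') :=
  ⟨mul_ne_zero h.ne h'.ne, h.eq h' ▸ add_nonneg h.nn h'.nn, fun R r => by
    rw [h.eq h', Pi.add_apply, h.zz R r, h'.zz R r, add_zero]⟩

theorem Us.pow {Z : Set (Pl K)} {m : ℕ} {w : K} (h : Us s Z m w) (k : ℕ) :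
    Us s Z (k * m) (w ^ k) ∧
      dv (w ^ k) + ((k * m : ℕ) : ℝ) • mx s = (k : ℝ) • (dv w + (m : ℝ) • mx s) := by
  have e : dv (w ^ k) + ((k * m : ℕ) : ℝ) • mx s = (k : ℝ) • (dv w + (m : ℝ) • mx s) := by
    rw [dv_pow, Nat.cast_mul, smul_add, smul_smul]
  exact ⟨⟨pow_ne_zero _ h.ne, e ▸ smul_nonneg k.cast_nonneg h.nn, fun R r => by
    rw [e, Pi.smul_apply, h.zz R r, smul_zero]⟩, e⟩

theorem large (hs : Nz s) {Z : Set (Pl K)} (hZ : Z.Finite) (T : Finset (Pl K)) (a : Pl K → ℝ)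
    (h : ∀ P ∈ T, 0 ≤ a P ∨ ∃ m w, Us s Z m w ∧ 0 < (dv w + (m : ℝ) • mx s) P) (m₀ : ℕ) :
    ∃ m w, m₀ ≤ m ∧ Us s Z m w ∧ ∀ P ∈ T, 0 ≤ a P + (dv w + (m : ℝ) • mx s) P := by
  classical
  induction T using Finset.induction_on with
  | empty =>
    obtain ⟨g, hg, g0, e⟩ := exists_gen hs hZ
    have u : Us s Z 1 g := ⟨g0, by simpa using (sec_of_span hg).resolve_left g0, by simpa using e⟩
    exact ⟨_, _, (mul_one m₀).ge, (u.pow m₀).1, by simp⟩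
  | insert R T _ ih =>
    obtain ⟨m, w, hm, u, k⟩ := ih fun P p => h P (Finset.mem_insert_of_mem p)
    rcases h R (Finset.mem_insert_self _ _) with q | ⟨m', w', u', q⟩
    · exact ⟨m, w, hm, u, Finset.forall_mem_insert _ _ _ |>.2 ⟨add_nonneg q (u.nn R), k⟩⟩
    obtain ⟨j, hj⟩ := exists_nat_ge (-a R / (dv w' + (m' : ℝ) • mx s) R)
    obtain ⟨v, e⟩ := u'.pow j
    refine ⟨_, _, hm.trans (Nat.le_add_right _ _), u.mul v, fun P p => ?_⟩
    rw [u.eq v, Pi.add_apply]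
    have a1 : (0 : ℝ) ≤ _ := u.nn P
    have a2 : (0 : ℝ) ≤ _ := v.nn P
    rcases Finset.mem_insert.1 p with rfl | p
    · rw [e, Pi.smul_apply, smul_eq_mul]
      linarith [(div_le_iff₀ q).1 hj]
    · linarith [k P p]

/-- a vertical place lies in a member of a multiple of the system -/
theorem van (hK : FF K n) (hs : Nz s) {R : Pl K} (h : ¬ Hor (fld (mx s)) R) :
    ∃ m w, Us s ∅ m w ∧ 0 < (dv w + (m : ℝ) • mx s) R := by
  by_contra! k
  have o : ∀ x ∈ lq (mx s) R, x⁻¹ ∈ lq (mx s) R := fun x hx => by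
    by_cases x0 : x = 0
    · rwa [x0, inv_zero, ← x0]
    refine inv_mem hx x0 (le_antisymm ?_ (ord_nonneg_of_mem _ (lq_le hx)))
    obtain ⟨m, w, u, v⟩ := hx
    have w0 := mul_ne_zero u.1 x0
    have a := k m _ ⟨w0, v.resolve_left w0, fun _ r => r.elim⟩
    have b := u.2.2
    simp only [Pi.add_apply, dv_apply, Pi.smul_apply, smul_eq_mul, ord_mul _ u.1 x0,
      Int.cast_add] at a
    exact Int.cast_nonpos.1 (show ((R.ord x : ℤ) : ℝ) ≤ 0 by linarith)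
  obtain ⟨g, hg, g0, e⟩ := R.exists_mz hs
  have l : rts s ≤ (lq (mx s) R).toIntermediateField o := rts_le_iff.2 fun a ha b hb => by
    rw [← div_div_div_cancel_right₀ g0]
    exact div_mem (ratio_mem ha hg g0 e) (ratio_mem hb hg g0 e)
  refine h fun x hx => ?_
  obtain ⟨p, hp, hx⟩ := ((mem_fld_mx hK).1 hx).isIntegral
  have : IsIntegral R.ring x := ⟨p.map ((algebraMap (rts s) K).codRestrict R.ring fun a =>
    lq_le (l a.2)), hp.map _, by rw [Polynomial.eval₂_map]; exact hx⟩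
  obtain ⟨y, rfl⟩ := IsIntegrallyClosed.isIntegral_iff.1 this
  exact y.2

/-- the pair `Θ` on `V Λ` and a place `P` of discrepancy `-1` -/
structure Su (n : ℕ) (Λ Θ : BD K) (P : Pl K) : Prop where
  ff : FF K (n + 1)
  smp : Smp Λ
  big : Big Λ
  nef : ∃ c : ℝ, Nef (c • Λ - Θ)
  bdy : Bdy n Λ Θ
  lc : dsc (n + 1) Θ P = -1

variable {P : Pl K}

/-- adjoint sections on `P` are sections -/
theorem Su.core (h : Su n Λ Θ P) : ∃ s : Finset P.κ, Nz s ∧ AmpOn (res P Λ) (mx s) ∧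
    ∀ (Z : Set (Pl P.κ)) (u : P.κ), Z.Finite → u ≠ 0 → (∀ R, Aj n (adj n P Θ) R u ∨
      ∃ m w, Us s Z m w ∧ 0 < (dv w + (m : ℝ) • mx s) R) →
      ∃ m w, Us s Z m w ∧ Sec ((m : ℝ) • mx s) (u * w) := by
  obtain ⟨hK, hΛ, hb, ⟨c, hc⟩, hB, hP⟩ := h
  have hκ := Gm.ffs.rsd n K hK P
  have cΘ := car_of_nef hΛ hc
  obtain ⟨s, ε, m₀, hs, hε, h2, hd, hm⟩ := setupG hΛ hb hc
  refine ⟨P.rs s, nz_rs hs, res_mx hK P s ▸ res_ampOn hK P ⟨hd, ε, hε, h2⟩,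
    fun Z u hZ u0 k => ?_⟩
  have e : ∀ R, (⌈dsc n (adj n P Θ - dv u) R⌉ : ℝ) = ⌈dsc n (adj n P Θ) R⌉ + R.ord u := fun R => by
    rw [← Int.cast_add, ← Int.ceil_add_intCast]
    simp only [dsc, Pi.sub_apply, dv_apply, sub_add]
  obtain ⟨T, hT⟩ := chk hκ (sub_mem (a1 n K hK P Θ cΘ).1 (dv_mem_Car u)) (mx_mem_Car (P.rs s))
  obtain ⟨m, w, hm', v, b⟩ := large (nz_rs hs) hZ T
    (fun R => ⌈dsc n (adj n P Θ - dv u) R⌉) (fun R _ => (k R).imp_left fun a => by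
      have := a.resolve_left u0
      rw [e, ← Int.cast_add, Int.cast_nonneg_iff, ← neg_le_iff_add_nonneg, Int.le_ceil_iff]
      push_cast
      linarith) m₀
  have d := hT _ ((Dsc.dv (smp_mx _) w).add ((Dsc.refl (smp_mx _)).smul _)) v.nn b
  have hL : (m : ℝ) • mx s ∈ CarZ K := CarZ.nsmul (mx_mem_CarZ s) m
  have rL : res P ((m : ℝ) • mx s) = (m : ℝ) • mx (P.rs s) := by
    rw [P287D.res_smul hK P _ (mx_mem_Car s), res_mx hK]
  obtain ⟨j, hj⟩ := CarZ.int hL P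
  have w0 := mul_ne_zero u0 v.ne
  obtain ⟨f, f0, a, o, r, -⟩ := lift (β := 0) adh hK hΛ hb cΘ hP (.zero hΛ) le_rfl
    (fun R hR _ => ceil_np (hB R hR)) hL (hd.smul _) hj (hm m hm').1 (hm m hm').2 w0
    (.inr fun R => by
      have := d R
      rw [e] at this
      rw [rL, dv_mul u0 v.ne]
      simp only [Pi.add_apply, Pi.zero_apply, dv_apply] at this ⊢
      linarith)
  rw [zero_add] at a
  have g := res'.nn n K hK P _ (add_mem (dv_mem_Car f) (CarZ.car hL)) a (by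
    rw [Pi.add_apply, dv_apply, o, hj]; simp)
  rw [P287D.res_add hK P (dv_mem_Car f) (CarZ.car hL), Ae.res_dv res' hK f0 o, r, rL] at g
  exact ⟨m, w, v, .inr g⟩

/-- **RK1** -/
theorem Su.rk1 (h : Su n Λ Θ P) {u : P.κ}
    (hu : ∀ w, Hor (fld (res P Λ)) w → Aj n (adj n P Θ) w u) : u ∈ fld (res P Λ) := by
  by_cases u0 : u = 0
  · exact u0 ▸ zero_mem _
  obtain ⟨s, hs, a, k⟩ := h.core
  obtain ⟨m, w, v, b⟩ := k ∅ u finite_empty u0 fun R => (em _).imp (hu R) fun q =>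
    van (Gm.ffs.rsd n K h.ff P) hs (a.fld_eq ▸ q)
  have := (a.1.smul m).fld_le (b.div_mem (.inr v.nn))
  rwa [mul_div_cancel_right₀ _ v.ne] at this

/-- **TV** -/
theorem Su.tv (h : Su n Λ Θ P) {L : IntermediateField ℂ P.κ} (hL : fld (res P Λ) = L)
    (hor : ∀ w, Hor L w → -1 < dsc n (adj n P Θ) w) {k : ℕ} {H : BD L} {v : Pl L}
    (fL : FF L (k + 1)) (sH : Smp H) (bH : Big H) (pr : res P Λ - pb (inc L) H ∈ Prn P.κ)
    (hv : On k H v) : ∃ w, Lies (inc L) w v ∧ dsc n (adj n P Θ) w + 1 ≤ w.ord (inc L v.t) := by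
  classical
  by_contra! hc
  have hκ := Gm.ffs.rsd n K h.ff P
  have ok := hκ.ok_sub L
  obtain ⟨s, hs, a, core⟩ := h.core
  obtain ⟨g, hg, g0⟩ := id hs
  have m : ∀ f : s, f * g⁻¹ ∈ L := fun f => hL ▸ a.fld_eq ▸
    (div_eq_mul_inv (f : P.κ) g ▸ rts_le_fld s (div_mem_rts f.2 hg))
  obtain ⟨s₀, n₀, e⟩ : ∃ s₀ : Finset L, Nz s₀ ∧ pb (inc L) (mx s₀) = mx s + dv g := by
    refine ⟨Finset.univ.image fun f : s => ⟨_, m f⟩, ⟨⟨_, m ⟨g, hg⟩⟩,
      Finset.mem_image_of_mem _ (Finset.mem_univ _), fun z =>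
        mul_ne_zero g0 (inv_ne_zero g0) (congrArg Subtype.val z)⟩, ?_⟩
    have e : im (inc L) (Finset.univ.image fun f : s => ⟨_, m f⟩) = s.image (· * g⁻¹) := by
      ext x
      simp only [Pb.mem_im, Finset.mem_image, Finset.mem_univ, true_and]
      exact ⟨fun ⟨_, ⟨a, e⟩, k⟩ => ⟨a, a.2, by rw [← k, ← e]; rfl⟩,
        fun ⟨a, e, k⟩ => ⟨_, ⟨⟨a, e⟩, rfl⟩, k⟩⟩
    rw [ok.pb_mx, e, mx_image_mul hs (inv_ne_zero g0), dv_inv, sub_neg_eq_add]
  obtain ⟨ε, hε, sm⟩ := a.2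
  have lo : Lo s₀ v := lo_of balg Gm.ffs res' fL n₀ sH bH hε
    ((pb_smp_iff hκ (hL ▸ cld_fld _)).1 (sm.congr (by
      rw [pb_sub, pb_smul, e, show mx s + dv g - ε • pb (inc L) H - (mx s - ε • res P Λ) =
        dv g + ε • (res P Λ - pb (inc L) H) by module]
      exact add_mem (dv_mem_Prn g) (Submodule.smul_mem _ _ pr)))) hv
  obtain ⟨R₀, r₀⟩ := Pb.up (φ := inc L) (fun _ => rfl) hκ v
  have t0 : inc L v.t ≠ 0 := (map_ne_zero _).2 v.t_ne
  obtain ⟨j, w, u, b⟩ := core {R₀} (inc L v.t)⁻¹ (finite_singleton _) (inv_ne_zero t0) fun R => by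
    rcases ok R with c | ⟨q, c⟩
    · refine .inl (.inr ?_)
      rw [ord_inv, c.ord]
      simpa using hor R fun x hx => c ⟨x, hx⟩
    by_cases z : q = v
    · subst z
      refine .inl (.inr ?_)
      rw [ord_inv]
      push_cast
      linarith [hc R c]
    obtain ⟨x, hx, hx'⟩ : ∃ x ∈ v.ring, x ∉ q.ring := not_subset.1 fun e =>
      z (Pl.ext' (congrArg _ (eq_of_le' (v := v.toPlace) (w := q.toPlace) e)).symm)
    obtain ⟨j, w, -, w0, b, d⟩ := lo.pole n₀ (neg_mem (pld_carZ x)) 0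
    have b' : pld x ≤ dv w + (j : ℝ) • mx s₀ := fun Q => by
      have := b.resolve_left w0 Q
      simp only [Pi.add_apply, Pi.neg_apply, Pi.zero_apply] at this ⊢
      linarith
    have w1 : inc L w ≠ 0 := (map_ne_zero _).2 w0
    have y : dv (inc L w * g ^ j) + (j : ℝ) • mx s = pb (inc L) (dv w + (j : ℝ) • mx s₀) := by
      rw [pb_add, pb_smul, e, ok.pb_dv, dv_mul w1 (pow_ne_zero _ g0), dv_pow, smul_add]
      abel
    refine .inr ⟨j, inc L w * g ^ j, ⟨mul_ne_zero w1 (pow_ne_zero _ g0),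
      y ▸ pb_nonneg _ ((pld_nonneg x).trans b'), ?_⟩, ?_⟩
    · rintro _ rfl
      rw [y, r₀.pb]
      simp only [Pi.add_apply, Pi.neg_apply, pld_eq_zero.2 hx, neg_zero, zero_add] at d ⊢
      rw [d, mul_zero]
    · rw [y, c.pb]
      exact mul_pos (Int.cast_pos.2 c.e_pos) ((pld_pos.2 hx').trans_le (b' q))
  have b1 := b.resolve_left (mul_ne_zero (inv_ne_zero t0) u.ne) R₀
  have b2 := u.zz R₀ rfl
  have b3 : (0 : ℝ) < R₀.ord (inc L v.t) := Int.cast_pos.2 r₀.e_pos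
  rw [dv_mul (inv_ne_zero t0) u.ne, dv_inv] at b1
  simp only [Pi.add_apply, Pi.neg_apply, Pi.zero_apply, dv_apply] at b1 b2
  linarith

end Vale.Agent.P287D.Wp
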