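import Vale.Agent.P287D.Wp.Sa
import Vale.Agent.P287D.On.Cen

/-!
# P287D, block WP: lifting of members of real linear systems
-/

open Set

noncomputable section

namespace Vale.Agent.P287D.Wp

open Loq Ae

variable {K K' : Type} [Field K] [Algebra ℂ K] [Field K'] [Algebra ℂ K'] {n : ℕ} {Λ Θ A : BD K}
  {P : Pl K}

/-- rational approximation of a semiample class -/
theorem smp_rat (h : Smp A) {η : ℝ} (e : 0 < η) :
    ∃ A', CarQ A' ∧ Smp (A' - A) ∧ Smp ((1 + η) • A - A') := by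
  obtain ⟨l, hl, rfl⟩ := h
  have k : ∀ s, ∃ q : ℚ, l s ≤ q ∧ q ≤ (1 + η) * l s := fun s => by
    rcases (show (0 : ℝ) ≤ l s from hl s).eq_or_lt with z | z
    · exact ⟨0, by simp [← z]⟩
    · obtain ⟨q, a, b⟩ := exists_rat_btwn (show l s < (1 + η) * l s by nlinarith)
      exact ⟨q, a.le, b.le⟩
  choose q q1 q2 using k
  refine ⟨∑ s ∈ l.support, (q s : ℝ) • mx s, .sum _ fun s _ => (carQ_mx s).qsmul _, ?_, ?_⟩
  · rw [cmb_sum, ← Finset.sum_sub_distrib]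
    exact .sum _ fun s _ => sub_smul (q s : ℝ) (l s) (mx s) ▸ (smp_mx s).smul (sub_nonneg.2 (q1 s))
  · rw [cmb_sum, Finset.smul_sum, ← Finset.sum_sub_distrib]
    exact .sum _ fun s _ => by
      rw [smul_smul, ← sub_smul]
      exact (smp_mx s).smul (sub_nonneg.2 (q2 s))

/-- the conductor -/
theorem Su.pre (h : Su n Λ Θ P) (hor : ∀ w, Hor (fld (res P Λ)) w → -1 < dsc n (adj n P Θ) w) :
    ∃ L ∈ CarZ K, ∃ w : P.κ, Dsc Λ L ∧ Nef (L - Θ) ∧ Big (L - Θ) ∧ w ≠ 0 ∧ 0 ≤ dv w + res P L ∧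
      ∀ R, 0 ≤ ⌈dsc n (adj n P Θ) R⌉ + (dv w + res P L) R := by
  obtain ⟨hK, hΛ, hb, ⟨c, hc⟩, hB, hP⟩ := h
  have hκ := Gm.ffs.rsd n K hK P
  obtain ⟨s, ε, m₀, hs, hε, h2, hd, hm⟩ := setupG hΛ hb hc
  have a : AmpOn (res P Λ) (mx (P.rs s)) := res_mx hK P s ▸ res_ampOn hK P ⟨hd, ε, hε, h2⟩
  obtain ⟨T, hT⟩ := chk hκ (a1 n K hK P Θ (car_of_nef hΛ hc)).1 (mx_mem_Car (P.rs s))
  obtain ⟨m, w, hm', v, b⟩ := large (nz_rs hs) finite_empty T
    (fun R => ⌈dsc n (adj n P Θ) R⌉) (fun R _ => (em _).imp (fun q => by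
      exact_mod_cast Int.lt_add_one_iff.1 (sub_lt_iff_lt_add.1 (Int.lt_ceil.2
        (by simpa using hor R q)))) fun q => van hκ (nz_rs hs) (a.fld_eq ▸ q)) m₀
  have rL : res P ((m : ℝ) • mx s) = (m : ℝ) • mx (P.rs s) := by
    rw [P287D.res_smul hK P _ (mx_mem_Car s), res_mx hK]
  exact ⟨_, CarZ.nsmul (mx_mem_CarZ s) m, w, hd.smul _, (hm m hm').1, (hm m hm').2, v.ne,
    rL ▸ v.nn, rL ▸ hT _ ((Dsc.dv (smp_mx _) w).add ((Dsc.refl (smp_mx _)).smul _)) v.nn b⟩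

/-- **LIFT** -/
theorem Su.lift (h : Su n Λ Θ P) (hor : ∀ w, Hor (fld (res P Λ)) w → -1 < dsc n (adj n P Θ) w)
    (hA : Smp A) (dA : Dsc Λ A) {G : BD P.κ} (r : Rep (res P A) G) {δ : ℝ} (hδ : 0 < δ) :
    ∃ D, Rep (A + δ • Λ) D ∧ D P = 0 ∧ G ≤ res P D := by
  have hK := h.ff
  have hΛ := h.smp
  have hκ := Gm.ffs.rsd n K hK P
  have av : ∀ {B : BD K}, Smp B → ∃ D, Rep B D ∧ D P = 0 ∧ 0 ≤ res P D := fun b =>
    let ⟨D, x, y⟩ := b.exists_rep (finite_singleton P)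
    ⟨D, x, y P rfl, res_nonneg hK P (x.car b.car) x.1 (y P rfl)⟩
  obtain _ | n := n
  · obtain ⟨D, x, y, -⟩ := av (hA.add (hΛ.smul hδ.le))
    exact ⟨D, x, y, fun Q => (Bm.no_pl hκ Q).elim⟩
  obtain ⟨η, e, s1⟩ := dA.exists_sub
  obtain ⟨B, qB, s2, s3⟩ := smp_rat hA (mul_pos (half_pos hδ) e)
  have sB : Smp B := by simpa using s2.add hA
  have s4 : Smp (A + (δ / 2) • Λ - B) := by
    have := s3.add (s1.smul (half_pos hδ).le)
    rwa [show (1 + δ / 2 * η) • A - B + (δ / 2) • (Λ - η • A) = A + (δ / 2) • Λ - B by module]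
      at this
  have dB : Dsc Λ B := (dA.add ((Dsc.refl hΛ).smul (δ / 2))).exists_sub.elim fun a ⟨x, y⟩ =>
    .of_smp hΛ sB x (by simpa [smul_sub] using y.add (s4.smul x.le))
  obtain ⟨L, zL, w, dL, nL, bL, w0, w1, w2⟩ := h.pre hor
  obtain ⟨G₀, r₀⟩ := (P287D.res_smp hK P s2).eff
  have r₁ := r.add r₀
  rw [← P287D.res_add hK P hA.car s2.car, add_sub_cancel] at r₁
  have add : ∀ {B B' D D' : BD K} {G G' : BD P.κ}, B ∈ Car K → B' ∈ Car K →
      Rep B D ∧ D P = 0 ∧ G ≤ res P D → Rep B' D' ∧ D' P = 0 ∧ G' ≤ res P D' →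
      Rep (B + B') (D + D') ∧ (D + D') P = 0 ∧ G + G' ≤ res P (D + D') :=
    fun c c' ⟨x, y, z⟩ ⟨x', y', z'⟩ => ⟨x.add x', by rw [Pi.add_apply, y, y', add_zero],
      P287D.res_add hK P (x.car c) (x'.car c') ▸ add_le_add z z'⟩
  have smul : ∀ {B D : BD K} {G : BD P.κ} {c : ℝ}, B ∈ Car K → 0 ≤ c →
      Rep B D ∧ D P = 0 ∧ G ≤ res P D → Rep (c • B) (c • D) ∧ (c • D) P = 0 ∧
        c • G ≤ res P (c • D) :=
    fun b c ⟨x, y, z⟩ => ⟨x.smul c, by rw [Pi.smul_apply, y, smul_zero],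
      P287D.res_smul hK P _ (x.car b) ▸ smul_le_smul_of_nonneg_left z c⟩
  have cc : ∀ a d : ℝ, a • B + d • Λ ∈ Car K := fun a d =>
    add_mem (Submodule.smul_mem _ _ sB.car) (Submodule.smul_mem _ _ hΛ.car)
  have key := On.rep_ind hκ (res_carQ hK P qB) (p := fun a G => ∀ d : ℝ, 0 < d →
    ∃ D, Rep (a • B + d • Λ) D ∧ D P = 0 ∧ G ≤ res P D)
    (fun d hd => by simpa using av (hΛ.smul hd.le))
    (fun a G b G' x y d hd => by
      obtain ⟨D, x⟩ := x _ (half_pos hd)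
      obtain ⟨D', y⟩ := y _ (half_pos hd)
      exact ⟨_, (show a • B + (d / 2) • Λ + (b • B + (d / 2) • Λ) = (a + b) • B + d • Λ by
        module) ▸ add (cc _ _) (cc _ _) x y⟩)
    (fun a G c hc x d hd => by
      rcases hc.eq_or_lt with rfl | c0
      · simpa using av (hΛ.smul hd.le)
      obtain ⟨D, x⟩ := x _ (div_pos hd c0)
      have := smul (cc _ _) hc x
      rw [smul_add, smul_smul, smul_smul, mul_div_cancel₀ _ c0.ne'] at this
      exact ⟨_, this⟩)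
    (fun m u u0 hu d hd => by
      obtain ⟨k₀, k0, zB⟩ := qB
      obtain ⟨a, a0, s5⟩ := dL.exists_sub
      obtain ⟨j, hj⟩ := exists_nat_gt (d * a)⁻¹
      have j0 : (0 : ℝ) < j := (inv_pos.2 (mul_pos hd a0)).trans hj
      have k1 : (1 : ℝ) ≤ k₀ := by exact_mod_cast k0
      have jk : (0 : ℝ) < (j * k₀ : ℕ) := by push_cast; positivity
      have sM : Smp (((j * k₀ : ℕ) : ℝ) • (m : ℝ) • B) := (sB.smul m.cast_nonneg).smul jk.le
      have zM : ((j * k₀ : ℕ) : ℝ) • (m : ℝ) • B ∈ CarZ K := by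
        rw [show ((j * k₀ : ℕ) : ℝ) • (m : ℝ) • B = ((j * m : ℕ) : ℝ) • (k₀ : ℝ) • B by
          push_cast; module]
        exact CarZ.nsmul zB _
      have z := add_mem zM zL
      obtain ⟨i, hi⟩ := CarZ.int z P
      have rM : res P (((j * k₀ : ℕ) : ℝ) • (m : ℝ) • B + L) =
          ((j * k₀ : ℕ) : ℝ) • (m : ℝ) • res P B + res P L := by
        rw [P287D.res_add hK P sM.car (CarZ.car zL),
          P287D.res_smul hK P _ (sB.smul m.cast_nonneg).car, P287D.res_smul hK P _ sB.car]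
      have u1 := pow_ne_zero (j * k₀) u0
      have e1 : dv (u ^ (j * k₀) * w) + res P (((j * k₀ : ℕ) : ℝ) • (m : ℝ) • B + L) =
          ((j * k₀ : ℕ) : ℝ) • (dv u + (m : ℝ) • res P B) + (dv w + res P L) := by
        rw [rM, dv_mul u1 w0, dv_pow]; module
      obtain ⟨c, hc⟩ := h.nef
      obtain ⟨f, f0, x, o, y, -⟩ := Ae.lift (β := 0) adh hK hΛ h.big (car_of_nef hΛ hc) h.lc
        (.zero hΛ) le_rfl (fun R hR _ => ceil_np (h.bdy R hR)) z (((dB.smul _).smul _).add dL) hi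
        (add_sub_assoc _ L Θ ▸ sM.nef.add nL) (add_sub_assoc _ L Θ ▸ sM.psef.add_big bL)
        (mul_ne_zero u1 w0) (.inr fun R => by
          rw [← add_assoc, e1]
          have := smul_nonneg jk.le (hu.resolve_left u0) R
          have := w2 R
          simp only [Pi.add_apply, Pi.zero_apply] at *
          linarith)
      rw [zero_add] at x
      have s6 : Smp (d • Λ - ((j * k₀ : ℕ) : ℝ)⁻¹ • L) := by
        have t : ((j * k₀ : ℕ) : ℝ)⁻¹ / a ≤ d := by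
          rw [div_le_iff₀ a0, inv_le_comm₀ jk (mul_pos hd a0)]
          push_cast
          nlinarith
        have := (hΛ.smul (sub_nonneg.2 t)).add (s5.smul (div_pos (inv_pos.2 jk) a0).le)
        rwa [smul_sub, smul_smul, div_mul_cancel₀ _ a0.ne', sub_smul, sub_add_sub_cancel] at this
      obtain ⟨D, t⟩ := av s6
      have := add (Submodule.smul_mem _ _ (CarZ.car z)) s6.car (smul (CarZ.car z) (inv_pos.2 jk).le
        (G := ((j * k₀ : ℕ) : ℝ) • (dv u + (m : ℝ) • res P B)) ⟨Sec.rep (.inr x) f0, by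
          rw [Pi.add_apply, dv_apply, o, hi]; simp, by
          rw [P287D.res_add hK P (dv_mem_Car f) (CarZ.car z), Ae.res_dv res' hK f0 o, y, e1]
          exact le_add_of_nonneg_right w1⟩) t
      rw [smul_add, inv_smul_smul₀ jk.ne', inv_smul_smul₀ jk.ne', add_zero, add_assoc,
        add_sub_cancel] at this
      exact ⟨_, this⟩) r₁
  obtain ⟨D, x⟩ := key _ (half_pos hδ)
  obtain ⟨D', y⟩ := av s4
  obtain ⟨x, y, z⟩ := add (cc _ _) s4.car x y
  rw [show (1 : ℝ) • B + (δ / 2) • Λ + (A + (δ / 2) • Λ - B) = A + δ • Λ by module] at x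
  exact ⟨_, x, y, (le_add_of_nonneg_right r₀.1).trans (by rwa [add_zero] at z)⟩

/-- a divisor which is effective at the generic primes is effective at the generic places -/
theorem genx {φ : K →+* K'} (hK : FF K' (n + 1)) (ok : Ok φ) (hb : Big Λ) {Λ' Z : BD K'}
    (s : Smp Λ') (b : Big Λ') (e : Λ' - pb φ Λ ∈ Prn K') (d : Dsc Λ' Z)
    (h : ∀ Q, On n Λ' Q → Trv φ Q → 0 ≤ Z Q) {x : Pl K'} (t : Trv φ x) : 0 ≤ Z x := by
  have fin := Pr.fin_on res' hK s b ((Ba.mod.isb n K' hK).1 Z d.car)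
  have k : ∀ Q : Pl K', ∃ D, 0 ≤ D ∧ Dsc Λ' D ∧ D x = 0 ∧ (On n Λ' Q → 0 ≤ Z Q + D Q) := fun Q => by
    rcases ok Q with c | ⟨R, c⟩
    · exact ⟨0, le_rfl, .zero s, rfl, fun o => by simpa using h Q o c⟩
    obtain ⟨ε, e0, E, r⟩ := hb.exists_eff (pld_car R.t⁻¹)
    have r' := (ok.rep (r.add (.refl (smul_nonneg e0.le (pld_nonneg R.t⁻¹))))).congr
      (γ := Λ') (by rwa [sub_add_cancel])
    have p : 0 < pb φ (E + ε • pld R.t⁻¹) Q := by
      rw [c.pb]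
      refine mul_pos (Int.cast_pos.2 c.e_pos) (add_pos_of_nonneg_of_pos (r.1 R) (mul_pos e0 ?_))
      rw [pld_apply, ← dv_apply, dv_inv, Pi.neg_apply, dv_apply, R.ord_t]
      simp
    refine ⟨(|Z Q| / pb φ (E + ε • pld R.t⁻¹) Q) • pb φ (E + ε • pld R.t⁻¹),
      smul_nonneg (div_nonneg (abs_nonneg _) p.le) r'.1, ((Dsc.refl s).congr r'.2).smul _,
      by rw [Pi.smul_apply, t.pb, smul_zero], fun _ => ?_⟩
    rw [Pi.smul_apply, smul_eq_mul, div_mul_cancel₀ _ p.ne']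
    linarith [neg_abs_le (Z Q)]
  choose D d0 d1 d2 d3 using k
  have := Pr.hart res' hK s b (d.add (Dsc.sum s fin.toFinset fun Q _ => d1 Q)) (fun Q o => by
    rw [Pi.add_apply, Finset.sum_apply]
    by_cases z : Z Q = 0
    · rw [z, zero_add]
      exact Finset.sum_nonneg fun R _ => d0 R Q
    · exact (d3 Q o).trans (add_le_add le_rfl (Finset.single_le_sum (f := fun R => D R Q)
        (fun R _ => d0 R Q) (fin.mem_toFinset.2 ⟨o, z⟩)))) x
  rwa [Pi.add_apply, Finset.sum_apply, Finset.sum_eq_zero fun Q _ => d2 Q, add_zero] at this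

end Vale.Agent.P287D.Wp
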